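import Vale.Agent.P139.Prob
import Vale.Agent.P139.Gauss

/-!
For large `α` the NLS solution with the random datum `∑ gₙ ⟨n⟩^{-α} e^{in·x}` exists, with
probability close to one, for a time exponential in `α`.
-/

noncomputable section

open MeasureTheory Vale.Agent.P139

theorem Vale.Agent.Results.P139.ExponentialLifespan.result :
    ∀ (d m k : ℕ), 2 ≤ k → ∀ η : ℝ, 0 < η → ∃ α₀ : ℝ, ∀ α > α₀,
      ∃ G : Set ((Fin d → ℤ) → ℂ), MeasurableSet G ∧
        1 - η ≤ (Measure.infinitePi (fun _ : Fin d → ℤ => gaussC) G).toReal ∧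
        ∀ g ∈ G, ∃ c : ℝ → (Fin d → ℤ) → ℂ,
          IsSolution d m k ((2 : ℝ) ^ (α / 32))
            (fun n => g n * (((1 + ∑ i, (n i : ℝ) ^ 2) ^ (-α / 2) : ℝ) : ℂ)) c := by
  intro d m k hk η hη
  refine long_solutions_whp (Measure.infinitePi (fun _ : Fin d → ℤ => gaussC))
    (fun n g => g n) (fun n => measurable_pi_apply n)
    (M := ∫ z, ‖z‖ ∂gaussC) (integral_nonneg fun z => norm_nonneg z) (fun n => ?_) hk hη
  rw [ofReal_integral_eq_lintegral_ofReal integrable_norm_gaussC
    (Filter.Eventually.of_forall fun z => norm_nonneg z)]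
  refine le_of_eq ?_
  conv_rhs => rw [← Measure.infinitePi_map_eval (μ := fun _ : Fin d → ℤ => gaussC) n]
  rw [lintegral_map (by fun_prop) (measurable_pi_apply n)]
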